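import Vale.Agent.P361.Fin

namespace Vale.Agent.Results.P361.LowerHalf

open Vale.Agent.P361 Filter Topology

/-- One side of Bloch's law: `S - m_S(β) ≥ c β^(-3/2)` at low temperature, for `S = n / 2`. -/
theorem result (n : ℕ) (hn : 0 < n) : ∃ c : ℝ, 0 < c ∧ ∃ β₀ : ℝ, ∀ β, β₀ ≤ β →
    ∀ p : ℝ → ℝ, (∀ h, Tendsto (press n β h) atTop (𝓝 (p h))) →
      ∀ m, HasDerivWithinAt p m (Set.Ici 0) 0 → c ≤ β ^ (3 / 2 : ℝ) * ((n : ℝ) / 2 - m) :=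
  bloch hn

end Vale.Agent.Results.P361.LowerHalf
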