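import Vale.Agent.P361.Fin3

namespace Vale.Agent.Results.P361.SharpFree

open Vale.Agent.P361 Filter Topology

/-- One side of Bloch's law with the exact constant, for `S = n / 2`: a finite volume form free of
hypotheses, and the form for the limiting pressure `p` and its right derivative `m = m_S(β)`. -/
theorem result (n : ℕ) (hn : 0 < n) (ε : ℝ) (hε : 0 < ε) : ∃ β₀ : ℝ, ∀ β, β₀ ≤ β →
    (∀ᶠ h : ℝ in 𝓝[>] 0, ∀ᶠ N : ℕ in atTop,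
      (∑' j : ℕ, 1 / ((j : ℝ) + 1) ^ (3 / 2 : ℝ)) /
          (8 * Real.pi ^ (3 / 2 : ℝ) * ((n : ℝ) / 2) ^ (3 / 2 : ℝ)) - ε ≤
        β ^ (3 / 2 : ℝ) * ((n : ℝ) / 2 - (press n β h N - press n β 0 N) / h)) ∧
    ∀ p : ℝ → ℝ, (∀ h, Tendsto (press n β h) atTop (𝓝 (p h))) →
      ∀ m, HasDerivWithinAt p m (Set.Ici 0) 0 →
        (∑' j : ℕ, 1 / ((j : ℝ) + 1) ^ (3 / 2 : ℝ)) /
            (8 * Real.pi ^ (3 / 2 : ℝ) * ((n : ℝ) / 2) ^ (3 / 2 : ℝ)) - ε ≤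
          β ^ (3 / 2 : ℝ) * ((n : ℝ) / 2 - m) :=
  bloch_free hn hε

end Vale.Agent.Results.P361.SharpFree
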