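import Vale.Agent.P361.Fin2

namespace Vale.Agent.Results.P361.SharpHalf

open Vale.Agent.P361 Filter Topology

/-- One side of Bloch's law with the exact constant: for `S = n / 2`,
`liminf β^(3/2) (S - m_S(β)) ≥ ζ(3/2) / (8 π^(3/2) S^(3/2))`. -/
theorem result (n : ℕ) (hn : 0 < n) (ε : ℝ) (hε : 0 < ε) : ∃ β₀ : ℝ, ∀ β, β₀ ≤ β →
    ∀ p : ℝ → ℝ, (∀ h, Tendsto (press n β h) atTop (𝓝 (p h))) →
      ∀ m, HasDerivWithinAt p m (Set.Ici 0) 0 →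
        (∑' j : ℕ, 1 / ((j : ℝ) + 1) ^ (3 / 2 : ℝ)) /
            (8 * Real.pi ^ (3 / 2 : ℝ) * ((n : ℝ) / 2) ^ (3 / 2 : ℝ)) - ε ≤
          β ^ (3 / 2 : ℝ) * ((n : ℝ) / 2 - m) :=
  bloch_sharp hn hε

end Vale.Agent.Results.P361.SharpHalf
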